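import Vale.Agent.P155Z.Sk

/-!
# P155, block ITO: measurability of the state of the flow

The first three statements are copied from `P164/Bdl/B3.lean`.
-/

namespace Vale.Agent.P155.Tree.Ito

open Set Metric Filter Topology MeasureTheory ProbabilityTheory Vale.Agent.P164

/-- Measurability into the space of continuous paths from measurability of the evaluations. -/
theorem adapt_measurable_path {Ω : Type*} [MeasurableSpace Ω] {T : ℝ}
    {π : Ω → C(Icc (0 : ℝ) T, ℝ)} (h : ∀ x : Icc (0 : ℝ) T, Measurable fun ω => π ω x) :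
    @Measurable Ω C(Icc (0 : ℝ) T, ℝ) _ (borel _) π := by
  let _ : MeasurableSpace C(Icc (0 : ℝ) T, ℝ) := borel _
  have _ : BorelSpace C(Icc (0 : ℝ) T, ℝ) := ⟨rfl⟩
  have hball : ∀ (f : C(Icc (0 : ℝ) T, ℝ)) (r : ℝ), 0 ≤ r →
      MeasurableSet (π ⁻¹' (Metric.closedBall f r)) := by
    intro f r hr
    obtain ⟨D, hDc, hDd⟩ := TopologicalSpace.exists_countable_dense (Icc (0 : ℝ) T)
    have e : π ⁻¹' (Metric.closedBall f r) = ⋂ x ∈ D, {ω | dist (π ω x) (f x) ≤ r} := by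
      ext ω
      rw [mem_preimage, mem_closedBall, ContinuousMap.dist_le hr, mem_iInter₂]
      constructor
      · intro h x _
        exact h x
      · intro h x
        have hcl : IsClosed {x | dist (π ω x) (f x) ≤ r} :=
          isClosed_le ((π ω).continuous.dist f.continuous) continuous_const
        exact (hcl.closure_subset_iff.2 fun x hx => h x hx) (hDd x)
    rw [e]
    exact MeasurableSet.biInter hDc fun x _ =>
      measurableSet_le ((h x).dist measurable_const) measurable_const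
  refine measurable_of_isOpen fun U hU => ?_
  obtain ⟨D, hDc, hDd⟩ := TopologicalSpace.exists_countable_dense C(Icc (0 : ℝ) T, ℝ)
  have e : U = ⋃ f ∈ D, ⋃ q ∈ {q : ℚ | (0 : ℝ) ≤ q ∧ closedBall f (q : ℝ) ⊆ U},
      closedBall f (q : ℝ) := by
    ext x
    rw [mem_iUnion₂]
    constructor
    · intro hx
      obtain ⟨ε, hε, hεU⟩ := Metric.isOpen_iff.1 hU x hx
      obtain ⟨f, hfx, hfD⟩ := Metric.dense_iff.1 hDd x (ε / 3) (by (clear * - hε; positivity))
      obtain ⟨q, hq1, hq2⟩ := exists_rat_btwn (mem_ball.1 hfx)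
      refine ⟨f, hfD, ?_⟩
      rw [mem_iUnion₂]
      refine ⟨q, ⟨dist_nonneg.trans hq1.le, ?_⟩, ?_⟩
      · intro y hy
        refine hεU ?_
        rw [mem_ball]
        rw [mem_closedBall] at hy
        calc dist y x ≤ dist y f + dist f x := dist_triangle _ _ _
          _ < ε := by linarith only [hε, hq1, hq2, hy]
      · rw [mem_closedBall, dist_comm]
        exact hq1.le
    · rintro ⟨f, -, hf⟩
      rw [mem_iUnion₂] at hf
      obtain ⟨q, ⟨_, hq⟩, hxq⟩ := hf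
      exact hq hxq
  rw [e, preimage_iUnion₂]
  refine MeasurableSet.biUnion hDc fun f _ => ?_
  rw [preimage_iUnion₂]
  exact MeasurableSet.biUnion (to_countable _) fun q hq => hball f q hq.1

/-- Joint measurability of state functionals on the space of paths. -/
theorem adapt_path_meas {T : ℝ} (hT : 0 ≤ T) {G : ℂ → ℝ → ℝ}
    (hG : Measurable (Function.uncurry G)) :
    @Measurable ((ℝ × ℂ) × C(Icc (0 : ℝ) T, ℝ)) ℝ
      (@Prod.instMeasurableSpace _ _ _ (borel C(Icc (0 : ℝ) T, ℝ))) _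
      (fun p => if 0 ≤ p.1.1 ∧ p.1.1 ≤ T then
        St G (IccExtend hT p.2) p.1.2 p.1.1 else 0) := by
  let _ : MeasurableSpace C(Icc (0 : ℝ) T, ℝ) := borel _
  have _ : BorelSpace C(Icc (0 : ℝ) T, ℝ) := ⟨rfl⟩
  set A : Set ((ℝ × ℂ) × C(Icc (0 : ℝ) T, ℝ)) := {p | 0 ≤ p.1.1 ∧ p.1.1 ≤ T} with hA
  set S : Set ((ℝ × ℂ) × C(Icc (0 : ℝ) T, ℝ)) :=
    {p | p ∈ A ∧ p.1.2 ∈ loewnerDomain (IccExtend hT p.2) p.1.1} with hS
  have hAm : MeasurableSet A :=
    (measurableSet_le measurable_const (measurable_fst.comp measurable_fst)).inter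
      (measurableSet_le (measurable_fst.comp measurable_fst) measurable_const)
  have hext : ∀ (w w' : C(Icc (0 : ℝ) T, ℝ)) (s : ℝ),
      |IccExtend hT w' s - IccExtend hT w s| ≤ dist w' w := by
    intro w w' s
    rw [← Real.dist_eq]
    exact ContinuousMap.dist_apply_le_dist _
  have hst : ∀ p ∈ S, ∀ ε > 0, ∃ δ > 0, ∀ q ∈ ball p δ, q ∈ A → q ∈ S ∧
      dist (Zf (IccExtend hT q.2) q.1.2 q.1.1) (Zf (IccExtend hT p.2) p.1.2 p.1.1) < ε ∧
      |Uf (IccExtend hT q.2) q.1.2 q.1.1 - Uf (IccExtend hT p.2) p.1.2 p.1.1| < ε := by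
    intro p hp ε hε
    obtain ⟨δ, hδ, h⟩ := flow_stable (W := IccExtend hT p.2)
      (p.2.continuous.Icc_extend' ) hp.1.1 hp.2 hε
    refine ⟨δ, hδ, fun q hq hqA => ?_⟩
    rw [mem_ball, Prod.dist_eq, max_lt_iff, Prod.dist_eq, max_lt_iff] at hq
    obtain ⟨⟨h1, h2⟩, h3⟩ := hq
    have := h q.1.2 (IccExtend hT q.2) q.1.1 h2 (q.2.continuous.Icc_extend')
      (fun s _ => (hext _ _ s).trans_lt h3) (by rwa [Real.dist_eq] at h1) hqA.1
    exact ⟨⟨hqA, this.1⟩, this.2.1, this.2.2⟩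
  have hSm : MeasurableSet S := by
    have hO : IsOpen {p | ∃ p' ∈ S, ∃ δ > 0, p ∈ ball p' δ ∧ ball p' δ ∩ A ⊆ S} := by
      rw [isOpen_iff_mem_nhds]
      rintro p ⟨p', hp', δ, hδ, hpδ, hsub⟩
      refine mem_of_superset (isOpen_ball.mem_nhds hpδ) fun q hq => ?_
      exact ⟨p', hp', δ, hδ, hq, hsub⟩
    have e : S = {p | ∃ p' ∈ S, ∃ δ > 0, p ∈ ball p' δ ∧ ball p' δ ∩ A ⊆ S} ∩ A := by
      ext p
      constructor
      · intro hp
        obtain ⟨δ, hδ, h⟩ := hst p hp 1 one_pos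
        exact ⟨⟨p, hp, δ, hδ, mem_ball_self hδ, fun q hq => (h q hq.1 hq.2).1⟩, hp.1⟩
      · rintro ⟨⟨p', hp', δ, hδ, hpδ, hsub⟩, hpA⟩
        exact hsub ⟨hpδ, hpA⟩
    rw [e]
    exact hO.measurableSet.inter hAm
  have hF : ContinuousOn (fun p : (ℝ × ℂ) × C(Icc (0 : ℝ) T, ℝ) =>
      ((Zf (IccExtend hT p.2) p.1.2 p.1.1, Uf (IccExtend hT p.2) p.1.2 p.1.1) : ℂ × ℝ)) S := by
    rw [Metric.continuousOn_iff]
    intro p hp ε hε
    obtain ⟨δ, hδ, h⟩ := hst p hp ε hε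
    refine ⟨δ, hδ, fun q hq hqp => ?_⟩
    have := h q hqp hq.1
    rw [Prod.dist_eq, max_lt_iff]
    exact ⟨this.2.1, by rw [Real.dist_eq]; exact this.2.2⟩
  refine measurable_of_restrict_of_restrict_compl hSm ?_ ?_
  · have e : S.domRestrict (fun p : (ℝ × ℂ) × C(Icc (0 : ℝ) T, ℝ) =>
        if 0 ≤ p.1.1 ∧ p.1.1 ≤ T then St G (IccExtend hT p.2) p.1.2 p.1.1 else 0) =
        Function.uncurry G ∘ S.domRestrict (fun p : (ℝ × ℂ) × C(Icc (0 : ℝ) T, ℝ) =>
          ((Zf (IccExtend hT p.2) p.1.2 p.1.1, Uf (IccExtend hT p.2) p.1.2 p.1.1) : ℂ × ℝ)) := by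
      funext p
      obtain ⟨p, hp⟩ := p
      change (if 0 ≤ p.1.1 ∧ p.1.1 ≤ T then St G (IccExtend hT p.2) p.1.2 p.1.1 else 0) =
        G (Zf (IccExtend hT p.2) p.1.2 p.1.1) (Uf (IccExtend hT p.2) p.1.2 p.1.1)
      rw [if_pos (show 0 ≤ p.1.1 ∧ p.1.1 ≤ T from hp.1), St_of_mem hp.2]
    rw [e]
    exact hG.comp (continuousOn_iff_continuous_domRestrict.1 hF).measurable
  · have e : Sᶜ.domRestrict (fun p : (ℝ × ℂ) × C(Icc (0 : ℝ) T, ℝ) =>
        if 0 ≤ p.1.1 ∧ p.1.1 ≤ T then St G (IccExtend hT p.2) p.1.2 p.1.1 else 0) =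
        fun _ => 0 := by
      funext p
      obtain ⟨p, hp⟩ := p
      change (if 0 ≤ p.1.1 ∧ p.1.1 ≤ T then St G (IccExtend hT p.2) p.1.2 p.1.1 else 0) = 0
      by_cases hpA : 0 ≤ p.1.1 ∧ p.1.1 ≤ T
      · rw [if_pos hpA, St_of_not_mem]
        intro h
        exact hp ⟨hpA, h⟩
      · rw [if_neg hpA]
    rw [e]
    exact measurable_const

variable {Ω : Type*} [MeasurableSpace Ω] {W : ℝ → Ω → ℝ} {s t T : ℝ}

/-- Joint measurability when the driving function is measurable up to time `T`. -/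
theorem adapt_joint (hc : ∀ ω, Continuous fun t => W t ω)
    (hm : ∀ s ∈ Icc 0 T, Measurable (W s))
    {G : ℂ → ℝ → ℝ} (hG : Measurable (Function.uncurry G)) :
    Measurable (fun p : (ℝ × ℂ) × Ω =>
      if 0 ≤ p.1.1 ∧ p.1.1 ≤ T then St G (fun u => W u p.2) p.1.2 p.1.1 else 0) := by
  rcases lt_or_ge T 0 with hT | hT
  · have e : (fun p : (ℝ × ℂ) × Ω =>
      if 0 ≤ p.1.1 ∧ p.1.1 ≤ T then St G (fun u => W u p.2) p.1.2 p.1.1 else 0) =
      fun _ => 0 := by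
      funext p
      rw [if_neg]
      rintro ⟨h1, h2⟩
      linarith only [hT, h1, h2]
    rw [e]
    exact measurable_const
  · let _ : MeasurableSpace C(Icc (0 : ℝ) T, ℝ) := borel _
    have _ : BorelSpace C(Icc (0 : ℝ) T, ℝ) := ⟨rfl⟩
    set π : Ω → C(Icc (0 : ℝ) T, ℝ) := fun ω =>
      ⟨fun x => W x ω, (hc ω).comp continuous_subtype_val⟩ with hπ
    have hπm : Measurable π := adapt_measurable_path fun x => hm x x.2
    have h1 := (adapt_path_meas hT hG).comp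
      (measurable_fst.prodMk (hπm.comp measurable_snd) : Measurable
        (fun p : (ℝ × ℂ) × Ω => (p.1, π p.2)))
    have e : (fun p : (ℝ × ℂ) × Ω =>
      if 0 ≤ p.1.1 ∧ p.1.1 ≤ T then St G (fun u => W u p.2) p.1.2 p.1.1 else 0) =
      (fun p : (ℝ × ℂ) × C(Icc (0 : ℝ) T, ℝ) => if 0 ≤ p.1.1 ∧ p.1.1 ≤ T then
        St G (IccExtend hT p.2) p.1.2 p.1.1 else 0) ∘ fun p : (ℝ × ℂ) × Ω => (p.1, π p.2) := by
      funext p
      change (if 0 ≤ p.1.1 ∧ p.1.1 ≤ T then St G (fun u => W u p.2) p.1.2 p.1.1 else 0) =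
        if 0 ≤ p.1.1 ∧ p.1.1 ≤ T then St G (IccExtend hT (π p.2)) p.1.2 p.1.1 else 0
      by_cases hp : 0 ≤ p.1.1 ∧ p.1.1 ≤ T
      · rw [if_pos hp, if_pos hp]
        refine St_congr hp.1 fun s hs => ?_
        rw [IccExtend_of_mem hT _ ⟨hs.1, hs.2.trans hp.2⟩]
        rfl
      · rw [if_neg hp, if_neg hp]
    rw [e]
    exact h1

/-- the points which are alive, jointly in the time, the point and the randomness -/
theorem joint_dom {Θ : Type*} [MeasurableSpace Θ] {V : Θ → ℝ → ℝ} {T : ℝ}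
    (hc : ∀ ω, Continuous (V ω)) (hm : ∀ s ∈ Icc 0 T, Measurable (fun ω => V ω s)) :
    MeasurableSet {p : (ℝ × ℂ) × Θ | (0 ≤ p.1.1 ∧ p.1.1 ≤ T) ∧
      p.1.2 ∈ loewnerDomain (V p.2) p.1.1} := by
  have h := adapt_joint (W := fun t ω => V ω t) (T := T) hc hm (G := fun _ _ => 1)
    measurable_const
  have e : {p : (ℝ × ℂ) × Θ | (0 ≤ p.1.1 ∧ p.1.1 ≤ T) ∧ p.1.2 ∈ loewnerDomain (V p.2) p.1.1} =
      (fun p : (ℝ × ℂ) × Θ => if 0 ≤ p.1.1 ∧ p.1.1 ≤ T then
        St (fun _ _ => 1) (fun u => V p.2 u) p.1.2 p.1.1 else 0) ⁻¹' {1} := by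
    ext p
    simp only [mem_ofPred_eq, mem_preimage, mem_singleton_iff]
    by_cases hp : 0 ≤ p.1.1 ∧ p.1.1 ≤ T
    · rw [if_pos hp]
      by_cases hz : p.1.2 ∈ loewnerDomain (V p.2) p.1.1
      · rw [St_of_mem hz]
        exact ⟨fun _ => rfl, fun _ => ⟨hp, hz⟩⟩
      · rw [St_of_not_mem hz]
        exact ⟨fun h => absurd h.2 hz, fun h => absurd h zero_ne_one⟩
    · rw [if_neg hp]
      exact ⟨fun h => absurd h.1 hp, fun h => absurd h zero_ne_one⟩
  rw [e]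
  exact h (measurableSet_singleton 1)

/-- the centred flow, jointly in the time, the point and the randomness -/
theorem joint_Z {Θ : Type*} [MeasurableSpace Θ] {V : Θ → ℝ → ℝ} {T : ℝ}
    (hc : ∀ ω, Continuous (V ω)) (hm : ∀ s ∈ Icc 0 T, Measurable (fun ω => V ω s)) :
    Measurable (fun p : (ℝ × ℂ) × Θ =>
      if 0 ≤ p.1.1 ∧ p.1.1 ≤ T then Zf (V p.2) p.1.2 p.1.1 else 0) := by
  have h1 := adapt_joint (W := fun t ω => V ω t) (T := T) hc hm (G := fun Z _ => Z.re)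
    (Complex.measurable_re.comp measurable_fst)
  have h2 := adapt_joint (W := fun t ω => V ω t) (T := T) hc hm (G := fun Z _ => Z.im)
    (Complex.measurable_im.comp measurable_fst)
  have h3 := (Complex.measurable_ofReal.comp h1).add
    ((Complex.measurable_ofReal.comp h2).mul_const Complex.I)
  have e : (fun p : (ℝ × ℂ) × Θ =>
      if 0 ≤ p.1.1 ∧ p.1.1 ≤ T then Zf (V p.2) p.1.2 p.1.1 else 0) = fun p : (ℝ × ℂ) × Θ =>
      (((if 0 ≤ p.1.1 ∧ p.1.1 ≤ T then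
        St (fun Z _ => Z.re) (fun u => V p.2 u) p.1.2 p.1.1 else 0 : ℝ) : ℂ) +
      ((if 0 ≤ p.1.1 ∧ p.1.1 ≤ T then
        St (fun Z _ => Z.im) (fun u => V p.2 u) p.1.2 p.1.1 else 0 : ℝ) : ℂ) * Complex.I) := by
    funext p
    by_cases hp : 0 ≤ p.1.1 ∧ p.1.1 ≤ T
    · rw [if_pos hp, if_pos hp, if_pos hp]
      by_cases hz : p.1.2 ∈ loewnerDomain (V p.2) p.1.1
      · rw [St_of_mem hz, St_of_mem hz]
        exact (Complex.re_add_im _).symm
      · rw [St_of_not_mem hz, St_of_not_mem hz, Zf_of_not_mem hz]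
        simp
    · rw [if_neg hp, if_neg hp, if_neg hp]
      simp
  rw [e]
  exact h3

/-- the logarithm of the conformal radius, jointly in the time, the point and the randomness -/
theorem joint_U {Θ : Type*} [MeasurableSpace Θ] {V : Θ → ℝ → ℝ} {T : ℝ}
    (hc : ∀ ω, Continuous (V ω)) (hm : ∀ s ∈ Icc 0 T, Measurable (fun ω => V ω s)) :
    Measurable (fun p : (ℝ × ℂ) × Θ =>
      if 0 ≤ p.1.1 ∧ p.1.1 ≤ T then St (fun _ U => U) (V p.2) p.1.2 p.1.1 else 0) :=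
  adapt_joint (W := fun t ω => V ω t) (T := T) hc hm (G := fun _ U => U) measurable_snd

end Vale.Agent.P155.Tree.Ito

namespace Vale.Agent.P155.Tree

open Set MeasureTheory Vale.Agent.P164 in
theorem meas : MEAS := by
  intro Θ _ W s hs hc hm
  have hp : Measurable (fun p : Θ × ℂ => (((s, p.2) : ℝ × ℂ), p.1)) :=
    (measurable_const.prodMk measurable_snd).prodMk measurable_fst
  have hss : 0 ≤ s ∧ s ≤ s := ⟨hs, le_rfl⟩
  refine ⟨?_, ?_, ?_⟩
  · have h := hp (Ito.joint_dom hc hm)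
    have e : {p : Θ × ℂ | p.2 ∈ loewnerDomain (W p.1) s} =
        (fun p : Θ × ℂ => (((s, p.2) : ℝ × ℂ), p.1)) ⁻¹'
        {p : (ℝ × ℂ) × Θ | (0 ≤ p.1.1 ∧ p.1.1 ≤ s) ∧ p.1.2 ∈ loewnerDomain (W p.2) p.1.1} := by
      ext p
      exact ⟨fun h => ⟨hss, h⟩, fun h => h.2⟩
    rw [e]
    exact h
  · have h := (Ito.joint_Z hc hm).comp hp
    have e : (fun p : Θ × ℂ => Zf (W p.1) p.2 s) = (fun p : (ℝ × ℂ) × Θ =>
        if 0 ≤ p.1.1 ∧ p.1.1 ≤ s then Zf (W p.2) p.1.2 p.1.1 else 0) ∘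
        (fun p : Θ × ℂ => (((s, p.2) : ℝ × ℂ), p.1)) := by
      funext p
      exact (if_pos hss).symm
    rw [e]
    exact h
  · have h := (Ito.joint_U hc hm).comp hp
    have e : ({p : Θ × ℂ | p.2 ∈ loewnerDomain (W p.1) s}.indicator
        fun p => Uf (W p.1) p.2 s) = (fun p : (ℝ × ℂ) × Θ =>
        if 0 ≤ p.1.1 ∧ p.1.1 ≤ s then St (fun _ U => U) (W p.2) p.1.2 p.1.1 else 0) ∘
        (fun p : Θ × ℂ => (((s, p.2) : ℝ × ℂ), p.1)) := by
      funext p
      change _ = if 0 ≤ s ∧ s ≤ s then St (fun _ U => U) (W p.1) p.2 s else 0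
      rw [if_pos hss]
      by_cases hz : p.2 ∈ loewnerDomain (W p.1) s
      · rw [St_of_mem hz, indicator_of_mem (s := {p : Θ × ℂ | p.2 ∈ loewnerDomain (W p.1) s}) hz]
      · rw [St_of_not_mem hz,
          indicator_of_notMem (s := {p : Θ × ℂ | p.2 ∈ loewnerDomain (W p.1) s}) hz]
    rw [e]
    exact h

end Vale.Agent.P155.Tree
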