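import Vale.Agent.P155Z.ITO.Stp

/-!
# P155, block ITO: the deterministic part
-/

namespace Vale.Agent.P155.Tree.Ito

open Set Metric Filter Topology MeasureTheory ProbabilityTheory Vale.Agent.P164 Asymptotics

theorem ii_of_bdd {v : ℝ → ℂ} {K ρ : ℝ} (hv : Measurable v) (hK : ∀ s ∈ Icc 0 ρ, ‖v s‖ ≤ K)
    {a b : ℝ} (ha : a ∈ Icc 0 ρ) (hb : b ∈ Icc 0 ρ) : IntervalIntegrable v volume a b := by
  have h : IntegrableOn v (Icc 0 ρ) :=
    Measure.integrableOn_of_bounded (M := K) measure_Icc_lt_top.ne hv.aestronglyMeasurable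
      ((ae_restrict_iff' measurableSet_Icc).2 (Eventually.of_forall hK))
  exact (h.mono_set (uIcc_subset_Icc ha hb)).intervalIntegrable

/-- the chain rule along a Lipschitz curve given as an integral -/
theorem chain {y v : ℝ → ℂ} {K ρ : ℝ} (hρ : 0 ≤ ρ) (hv : Measurable v)
    (hK : ∀ s ∈ Icc 0 ρ, ‖v s‖ ≤ K) (hy : ∀ s ∈ Icc 0 ρ, y s = y 0 + ∫ u in (0 : ℝ)..s, v u)
    {F F' : ℂ → ℂ} (hF : ∀ s ∈ Icc 0 ρ, HasDerivAt F (F' (y s)) (y s))
    (hc : ContinuousOn (fun s => F' (y s)) (Icc 0 ρ)) :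
    F (y ρ) - F (y 0) = ∫ u in (0 : ℝ)..ρ, v u * F' (y u) := by
  have h0 : (0 : ℝ) ∈ Icc 0 ρ := ⟨le_rfl, hρ⟩
  have hK0 : 0 ≤ K := (norm_nonneg _).trans (hK 0 h0)
  have hi : ∀ a ∈ Icc 0 ρ, ∀ b ∈ Icc 0 ρ, IntervalIntegrable v volume a b :=
    fun a ha b hb => ii_of_bdd hv hK ha hb
  have hi' : ∀ a ∈ Icc 0 ρ, ∀ b ∈ Icc 0 ρ,
      IntervalIntegrable (fun u => v u * F' (y u)) volume a b := fun a ha b hb =>
    (hi a ha b hb).mul_continuousOn (hc.mono (uIcc_subset_Icc ha hb))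
  have hsub : ∀ a ∈ Icc 0 ρ, ∀ b ∈ Icc 0 ρ, y b - y a = ∫ u in a..b, v u := by
    intro a ha b hb
    rw [hy a ha, hy b hb, ← intervalIntegral.integral_interval_sub_left (hi 0 h0 b hb)
      (hi 0 h0 a ha)]
    ring
  have hlip : ∀ a ∈ Icc 0 ρ, ∀ b ∈ Icc 0 ρ, ‖y b - y a‖ ≤ K * |b - a| := by
    intro a ha b hb
    rw [hsub a ha b hb]
    exact intervalIntegral.norm_integral_le_of_norm_le_const fun u hu =>
      hK u (uIcc_subset_Icc ha hb (uIoc_subset_uIcc hu))
  set φ : ℝ → ℂ := fun s => F (y s) - ∫ u in (0 : ℝ)..s, v u * F' (y u) with hφ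
  have hd : ∀ s ∈ Icc 0 ρ, HasDerivWithinAt φ 0 (Icc 0 ρ) s := by
    intro s hs
    rw [hasDerivWithinAt_iff_isLittleO]
    have hO : (fun t => y t - y s) =O[𝓝[Icc 0 ρ] s] fun t => t - s := by
      refine IsBigO.of_bound K ?_
      filter_upwards [self_mem_nhdsWithin] with t ht
      exact hlip s hs t ht
    have hyc : Tendsto y (𝓝[Icc 0 ρ] s) (𝓝 (y s)) := by
      have h1 : Tendsto (fun t : ℝ => t - s) (𝓝[Icc 0 ρ] s) (𝓝 0) := by
        have h2 : Tendsto (fun t : ℝ => t - s) (𝓝 s) (𝓝 (s - s)) :=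
          (continuous_id.sub continuous_const).tendsto s
        rw [sub_self] at h2
        exact h2.mono_left nhdsWithin_le_nhds
      exact tendsto_sub_nhds_zero_iff.1 (hO.trans_tendsto h1)
    have h1 : (fun t => F (y t) - F (y s) - (y t - y s) • F' (y s)) =o[𝓝[Icc 0 ρ] s]
        fun t => t - s :=
      ((hasDerivAt_iff_isLittleO.1 (hF s hs)).comp_tendsto hyc).trans_isBigO hO
    have h2 : (fun t => ∫ u in s..t, v u * (F' (y s) - F' (y u))) =o[𝓝[Icc 0 ρ] s]
        fun t => t - s := by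
      rw [isLittleO_iff]
      intro ε hε
      have h3 := Metric.continuousWithinAt_iff.1 (hc s hs) (ε / (K + 1)) (by positivity)
      obtain ⟨δ, hδ, h3⟩ := h3
      filter_upwards [self_mem_nhdsWithin, mem_nhdsWithin_of_mem_nhds (ball_mem_nhds s hδ)]
        with t ht htδ
      refine intervalIntegral.norm_integral_le_of_norm_le_const fun u hu => ?_
      have hu' := uIoc_subset_uIcc hu
      have huI : u ∈ Icc 0 ρ := uIcc_subset_Icc hs ht hu'
      have hud : dist u s < δ := by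
        have h4 : |u - s| ≤ |t - s| := abs_sub_left_of_mem_uIcc hu'
        rw [mem_ball, Real.dist_eq] at htδ
        rw [Real.dist_eq]
        exact h4.trans_lt htδ
      have h5 := h3 huI hud
      rw [dist_comm, dist_eq_norm] at h5
      rw [norm_mul]
      calc ‖v u‖ * ‖F' (y s) - F' (y u)‖ ≤ (K + 1) * (ε / (K + 1)) :=
            mul_le_mul ((hK u huI).trans (by linarith)) h5.le (norm_nonneg _) (by positivity)
        _ = ε := by field_simp
    refine (h1.add h2).congr' ?_ EventuallyEq.rfl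
    filter_upwards [self_mem_nhdsWithin] with t ht
    have e1 : ∫ u in s..t, v u * (F' (y s) - F' (y u)) =
        (y t - y s) * F' (y s) - ∫ u in s..t, v u * F' (y u) := by
      rw [hsub s hs t ht, ← intervalIntegral.integral_mul_const,
        ← intervalIntegral.integral_sub ((hi s hs t ht).mul_const _) (hi' s hs t ht)]
      congr 1
      funext u
      ring
    rw [e1, ← intervalIntegral.integral_interval_sub_left (hi' 0 h0 t ht) (hi' 0 h0 s hs)]
    simp only [hφ, smul_eq_mul, smul_zero]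
    ring
  have h := eq_of_deriv_zero hρ hd
  simp only [hφ, intervalIntegral.integral_same, sub_zero] at h
  rw [← h]
  ring

open Classical in
/-- the truncated drift -/
noncomputable def bb (e y : ℝ) : ℝ := if e < |y| then 2 / y else 0

theorem measurable_bb (e : ℝ) : Measurable (bb e) :=
  Measurable.ite (measurableSet_lt measurable_const (measurable_id.abs))
    (measurable_const.div measurable_id) measurable_const

theorem abs_bb_le {e : ℝ} (he : 0 < e) (y : ℝ) : |bb e y| ≤ 2 / e := by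
  unfold bb
  split_ifs with h
  · rw [abs_div, abs_two]
    exact div_le_div_of_nonneg_left zero_le_two he h.le
  · rw [abs_zero]
    positivity

theorem pv_eq (x : ℝ → ℝ) (e t : ℝ) : pv x e t = ∫ s in (0 : ℝ)..t, bb e (x s) := rfl

theorem ii_bb {x : ℝ → ℝ} (hx : Continuous x) {e : ℝ} (he : 0 < e) (a b : ℝ) :
    IntervalIntegrable (fun s => bb e (x s)) volume a b := by
  have h : IntegrableOn (fun s => bb e (x s)) (uIcc a b) :=
    Measure.integrableOn_of_bounded (M := 2 / e) isCompact_uIcc.measure_lt_top.ne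
      ((measurable_bb e).comp hx.measurable).aestronglyMeasurable
      (Eventually.of_forall fun s => abs_bb_le he _)
  exact h.intervalIntegrable

theorem continuous_pv {x : ℝ → ℝ} (hx : Continuous x) {e : ℝ} (he : 0 < e) :
    Continuous (pv x e) :=
  intervalIntegral.continuous_primitive (ii_bb hx he) 0

/-- the regularised driving function -/
noncomputable def Wk (x : ℝ → ℝ) (e : ℝ) : ℝ → ℝ := fun t => -pv x e t + x t

theorem continuous_Wk {x : ℝ → ℝ} (hx : Continuous x) {e : ℝ} (he : 0 < e) :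
    Continuous (Wk x e) := (continuous_pv hx he).neg.add hx

theorem norm_inv_le {c : ℝ} (hc : 0 < c) {Z : ℂ} (h : c ≤ Z.im) : ‖Z⁻¹‖ ≤ 1 / c := by
  rw [norm_inv, ← one_div]
  exact one_div_le_one_div_of_le hc (h.trans ((le_abs_self _).trans (Complex.abs_im_le_norm _)))

theorem ne_zero_of_im {Z : ℂ} (h : 0 < Z.im) : Z ≠ 0 := fun h0 => by simp [h0] at h

/-- the pathwise formula for the regularised flow -/
theorem reg_limit (hF : FOLL) {x : ℝ → ℝ} (hx : Continuous x) (hx0 : x 0 = 0) (hq : HasQV x)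
    {ρ ρ' : ℝ} {m : ℕ → ℕ} (hρ : 0 ≤ ρ) (hρρ : ρ < ρ')
    (hm : Tendsto (fun n => tt n (m n)) atTop (𝓝 ρ)) {e c : ℝ} (he : 0 < e) (hc : 0 < c) {w : ℂ}
    (hw : w ∈ loewnerDomain (Wk x e) ρ') (him : c ≤ (Zf (Wk x e) w ρ').im) :
    ∃ L : ℂ, Tendsto (fun n => ∑ i ∈ Finset.range (m n),
        (Zf (Wk x e) w (tt n i))⁻¹ * (dx x n i : ℂ)) atTop (𝓝 L) ∧
      ‖L + (Complex.log (Zf (Wk x e) w ρ) - Complex.log (Zf (Wk x e) w ρ + (x ρ : ℂ)))‖ ≤
        2 / c ^ 2 * volume.real {s | s ∈ Icc 0 ρ ∧ |x s| ≤ e} := by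
  classical
  have hρ' : 0 ≤ ρ' := hρ.trans hρρ.le
  have hV := continuous_Wk hx he
  set Z : ℝ → ℂ := Zf (Wk x e) w with hZ
  have hZc : ContinuousOn Z (Icc 0 ρ') := Zf_cont hV hρ' hw
  have hZi : ∀ s ∈ Icc 0 ρ', c ≤ (Z s).im := fun s hs => him.trans (im_le_of_le hs.1 hs.2 hw)
  have hZ0 : ∀ s ∈ Icc 0 ρ', Z s ≠ 0 := fun s hs => ne_zero_of_im (hc.trans_le (hZi s hs))
  set y : ℝ → ℂ := fun s => Z s + (x s : ℂ) with hy
  have hyi : ∀ s ∈ Icc 0 ρ', c ≤ (y s).im := fun s hs => by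
    simpa only [hy, Complex.add_im, Complex.ofReal_im, add_zero] using hZi s hs
  have hy0 : ∀ s ∈ Icc 0 ρ', y s ≠ 0 := fun s hs => ne_zero_of_im (hc.trans_le (hyi s hs))
  have hyc : ContinuousOn y (Icc 0 ρ') :=
    hZc.add (Complex.continuous_ofReal.comp hx).continuousOn
  have hyx : ∀ s, y s - (x s : ℂ) = Z s := fun s => by simp only [hy, add_sub_cancel_right]
  have h2c : ContinuousOn (fun s => 2 / Z s) (Icc 0 ρ') := continuousOn_const.div hZc hZ0
  set a : ℝ → ℂ := (Icc 0 ρ').piecewise (fun s => 2 / Z s) (fun _ => 0) with ha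
  have ham : Measurable a := h2c.measurable_piecewise continuousOn_const measurableSet_Icc
  have hae : ∀ s ∈ Icc 0 ρ', a s = 2 / Z s := fun s hs => piecewise_eq_of_mem _ _ _ hs
  have hbm : Measurable fun s => ((bb e (x s) : ℝ) : ℂ) :=
    Complex.measurable_ofReal.comp ((measurable_bb e).comp hx.measurable)
  set v : ℝ → ℂ := fun s => a s + ((bb e (x s) : ℝ) : ℂ) with hv
  have hvm : Measurable v := ham.add hbm
  have hvK : ∀ s ∈ Icc 0 ρ', ‖v s‖ ≤ 2 / c + 2 / e := by
    intro s hs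
    refine (norm_add_le _ _).trans (add_le_add ?_ ?_)
    · rw [hae s hs, div_eq_mul_inv, norm_mul, Complex.norm_ofNat]
      calc 2 * ‖(Z s)⁻¹‖ ≤ 2 * (1 / c) :=
            mul_le_mul_of_nonneg_left (norm_inv_le hc (hZi s hs)) zero_le_two
        _ = 2 / c := by ring
    · rw [Complex.norm_real, Real.norm_eq_abs]
      exact abs_bb_le he _
  have hyg : ∀ s, y s = gf (Wk x e) w s + ((pv x e s : ℝ) : ℂ) := by
    intro s
    simp only [hy, hZ, gf, Wk]
    push_cast
    ring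
  have hyv : ∀ s ∈ Icc 0 ρ', y s = y 0 + ∫ u in (0 : ℝ)..s, v u := by
    intro s hs
    have hsub : Icc 0 s ⊆ Icc 0 ρ' := Icc_subset_Icc_right hs.2
    have i1 : IntervalIntegrable (fun u => 2 / Z u) volume 0 s := by
      apply ContinuousOn.intervalIntegrable
      rw [uIcc_of_le hs.1]
      exact h2c.mono hsub
    have e1 : ∫ u in (0 : ℝ)..s, 2 / Z u = gf (Wk x e) w s - gf (Wk x e) w 0 := by
      refine intervalIntegral.integral_eq_sub_of_hasDeriv_right_of_le hs.1
        ((gf_cont hρ' hw).mono hsub) (fun u hu => ?_) i1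
      have hu' : u ∈ Icc 0 ρ' := ⟨hu.1.le, hu.2.le.trans hs.2⟩
      exact ((gf_hasDeriv hw hu').hasDerivAt
        (Icc_mem_nhds hu.1 (hu.2.trans_le hs.2))).hasDerivWithinAt
    have e2 : ∫ u in (0 : ℝ)..s, a u = ∫ u in (0 : ℝ)..s, 2 / Z u := by
      refine intervalIntegral.integral_congr fun u hu => ?_
      rw [uIcc_of_le hs.1] at hu
      exact hae u (hsub hu)
    have i2 : IntervalIntegrable a volume 0 s := by
      refine i1.congr fun u hu => ?_
      rw [uIoc_of_le hs.1] at hu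
      exact (hae u (hsub ⟨hu.1.le, hu.2⟩)).symm
    have i3 : IntervalIntegrable (fun u => ((bb e (x u) : ℝ) : ℂ)) volume 0 s :=
      ⟨(ii_bb hx he 0 s).1.ofReal, (ii_bb hx he 0 s).2.ofReal⟩
    rw [hv, intervalIntegral.integral_add i2 i3, e2, e1, intervalIntegral.integral_ofReal,
      ← pv_eq, hyg s, hyg 0, pv_eq x e 0, intervalIntegral.integral_same]
    push_cast
    ring
  have hlim := hF x hx hq ρ ρ' m hρ hρρ hm y v _ hvm hvK hyv
    fun s hs => hc.trans_le (hyi s hs)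
  simp only [hyx] at hlim
  refine ⟨_, hlim, ?_⟩
  have hsub : Icc 0 ρ ⊆ Icc 0 ρ' := Icc_subset_Icc_right hρρ.le
  have hsub' : uIcc 0 ρ ⊆ Icc 0 ρ' := by rw [uIcc_of_le hρ]; exact hsub
  have hch := chain (F := Complex.log) (F' := fun z => z⁻¹) hρ hvm (fun s hs => hvK s (hsub hs))
    (fun s hs => hyv s (hsub hs))
    (fun s hs => Complex.hasDerivAt_log (Or.inr (hc.trans_le (hyi s (hsub hs))).ne'))
    ((hyc.inv₀ hy0).mono hsub)
  have hy00 : y 0 = Z 0 := by simp only [hy, hx0, Complex.ofReal_zero, add_zero]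
  have iv : IntervalIntegrable v volume 0 ρ :=
    ii_of_bdd hvm hvK ⟨le_rfl, hρ'⟩ ⟨hρ, hρρ.le⟩
  have j1 : IntervalIntegrable (fun s => v s / Z s - 2 / Z s ^ 2) volume 0 ρ := by
    refine IntervalIntegrable.sub ?_ ?_
    · simp only [div_eq_mul_inv]
      exact iv.mul_continuousOn ((hZc.inv₀ hZ0).mono hsub')
    · exact ((continuousOn_const.div (hZc.pow 2) fun s hs =>
        pow_ne_zero 2 (hZ0 s hs)).mono hsub').intervalIntegrable
  have j2 : IntervalIntegrable (fun s => v s * (y s)⁻¹) volume 0 ρ :=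
    iv.mul_continuousOn ((hyc.inv₀ hy0).mono hsub')
  have e3 : Complex.log (Z 0) - Complex.log (Z ρ) +
      (∫ s in (0 : ℝ)..ρ, (v s / Z s - 2 / Z s ^ 2)) +
      (Complex.log (Z ρ) - Complex.log (Z ρ + (x ρ : ℂ))) =
      ∫ s in (0 : ℝ)..ρ, ((v s / Z s - 2 / Z s ^ 2) - v s * (y s)⁻¹) := by
    rw [intervalIntegral.integral_sub j1 j2, ← hch, hy00]
    simp only [hy]
    ring
  rw [e3]
  have hA : MeasurableSet {s | |x s| ≤ e} :=
    measurableSet_le hx.measurable.abs measurable_const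
  have hb : ∀ s ∈ Ioc 0 ρ, ‖(v s / Z s - 2 / Z s ^ 2) - v s * (y s)⁻¹‖ ≤
      {s | |x s| ≤ e}.indicator (fun _ => 2 / c ^ 2) s := by
    intro s hs
    have hs' : s ∈ Icc 0 ρ' := hsub ⟨hs.1.le, hs.2⟩
    have z1 := hZ0 s hs'
    have z2 := hy0 s hs'
    by_cases h : |x s| ≤ e
    · rw [indicator_of_mem (s := {s | |x s| ≤ e}) h]
      have e4 : (v s / Z s - 2 / Z s ^ 2) - v s * (y s)⁻¹ = -(2 * ((Z s)⁻¹ * (y s)⁻¹)) := by
        simp only [hv, hae s hs', bb, if_neg (not_lt.2 h), Complex.ofReal_zero, add_zero]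
        field_simp
        ring
      rw [e4, norm_neg, norm_mul, norm_mul, Complex.norm_ofNat]
      calc 2 * (‖(Z s)⁻¹‖ * ‖(y s)⁻¹‖) ≤ 2 * (1 / c * (1 / c)) :=
            mul_le_mul_of_nonneg_left (mul_le_mul (norm_inv_le hc (hZi s hs'))
              (norm_inv_le hc (hyi s hs')) (norm_nonneg _) (by positivity)) zero_le_two
        _ = 2 / c ^ 2 := by ring
    · rw [indicator_of_notMem (s := {s | |x s| ≤ e}) h]
      have hxs : (x s : ℂ) ≠ 0 := by
        rw [Complex.ofReal_ne_zero]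
        intro h0
        rw [h0, abs_zero] at h
        exact h he.le
      have e4 : (v s / Z s - 2 / Z s ^ 2) - v s * (y s)⁻¹ = 0 := by
        simp only [hv, hae s hs', bb, if_pos (not_le.1 h)]
        push_cast
        field_simp
        simp only [hy]
        ring
      rw [e4, norm_zero]
  rw [intervalIntegral.integral_of_le hρ]
  refine (norm_integral_le_of_norm_le (g := {s | |x s| ≤ e}.indicator fun _ => 2 / c ^ 2)
    ((integrable_const _).indicator hA)
    ((ae_restrict_iff' measurableSet_Ioc).2 (Eventually.of_forall hb))).trans ?_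
  rw [integral_indicator_const _ hA, smul_eq_mul, mul_comm]
  refine mul_le_mul_of_nonneg_left ?_ (by positivity)
  rw [measureReal_restrict_apply hA]
  refine measureReal_mono (fun s hs => ⟨⟨hs.2.1.le, hs.2.2⟩, hs.1⟩) ?_
  exact ((measure_mono fun s hs => hs.1).trans_lt measure_Icc_lt_top).ne

end Vale.Agent.P155.Tree.Ito
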