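import Vale.Agent.P155Z.ITO.Meas

/-!
# P155, block ITO: the stopped state
-/

namespace Vale.Agent.P155.Tree.Ito

open Set Metric Filter Topology MeasureTheory ProbabilityTheory Vale.Agent.P164

theorem tt_nonneg (n i : ℕ) : 0 ≤ tt n i := by unfold tt; positivity

theorem tt_mono (n : ℕ) {i j : ℕ} (h : i ≤ j) : tt n i ≤ tt n j := by
  unfold tt
  exact div_le_div_of_nonneg_right (Nat.cast_le.2 h) (by positivity)

theorem tt_top (T n : ℕ) : tt n (T * 2 ^ n) = T := by
  unfold tt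
  push_cast
  field_simp

theorem tt_le {T n i : ℕ} (h : i ≤ T * 2 ^ n) : tt n i ≤ T := (tt_mono n h).trans_eq (tt_top T n)

theorem tt_succ (n i : ℕ) : tt n (i + 1) = tt n i + 1 / 2 ^ n := by
  unfold tt
  push_cast
  ring

theorem tt_floor_le {s : ℝ} (hs : 0 ≤ s) (n : ℕ) : tt n ⌊s * 2 ^ n⌋₊ ≤ s := by
  unfold tt
  rw [div_le_iff₀ (by positivity)]
  exact Nat.floor_le (by positivity)

theorem le_tt_floor (s : ℝ) (n : ℕ) : s ≤ tt n ⌊s * 2 ^ n⌋₊ + 1 / 2 ^ n := by
  rw [← tt_succ]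
  unfold tt
  rw [le_div_iff₀ (by positivity)]
  push_cast
  exact (Nat.lt_floor_add_one _).le

theorem tendsto_mesh : Tendsto (fun n : ℕ => (1 : ℝ) / 2 ^ n) atTop (𝓝 0) := by
  have h := tendsto_pow_atTop_nhds_zero_of_lt_one (r := (1 / 2 : ℝ)) (by norm_num) (by norm_num)
  refine h.congr fun n => ?_
  rw [one_div_pow]

theorem tendsto_tt_floor {s : ℝ} (hs : 0 ≤ s) :
    Tendsto (fun n => tt n ⌊s * 2 ^ n⌋₊) atTop (𝓝 s) := by
  have h1 : Tendsto (fun n : ℕ => s - (1 : ℝ) / 2 ^ n) atTop (𝓝 s) := by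
    simpa only [sub_zero] using tendsto_mesh.const_sub s
  refine tendsto_of_tendsto_of_tendsto_of_le_of_le h1 tendsto_const_nhds (fun n => ?_)
    fun n => tt_floor_le hs n
  have := le_tt_floor s n
  show s - 1 / 2 ^ n ≤ _
  linarith

variable {Θ : Type} {E : ℝ → Set Θ} {T : ℝ} {ω : Θ}

theorem last_nonneg : 0 ≤ last E T ω :=
  Real.sSup_nonneg fun _ hx => hx.1.1

theorem last_le (hT : 0 ≤ T) : last E T ω ≤ T :=
  Real.sSup_le (fun _ hx => hx.1.2) hT

theorem le_last {s : ℝ} (hs : s ∈ Icc 0 T) (h : ω ∈ E s) : s ≤ last E T ω :=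
  le_csSup ⟨T, fun _ hx => hx.1.2⟩ ⟨hs, h⟩

theorem mem_of_lt_last (hE : ∀ s t, 0 ≤ s → s ≤ t → E t ⊆ E s) {s : ℝ} (hs : 0 ≤ s)
    (h : s < last E T ω) : ω ∈ E s := by
  rcases Set.eq_empty_or_nonempty {s | s ∈ Icc 0 T ∧ ω ∈ E s} with h0 | h0
  · rw [last, h0, Real.sSup_empty] at h
    exact absurd h (not_lt.2 hs)
  · obtain ⟨u, hu, hsu⟩ := exists_lt_of_lt_csSup h0 h
    exact hE s u hs hsu.le hu.2

theorem measurable_last [MeasurableSpace Θ] (hE : ∀ s t, 0 ≤ s → s ≤ t → E t ⊆ E s)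
    (hT : 0 ≤ T) (hm : ∀ s ∈ Icc 0 T, MeasurableSet (E s)) : Measurable (last E T) := by
  refine measurable_of_Ioi fun a => ?_
  rcases lt_or_ge a 0 with ha | ha
  · have e : last E T ⁻¹' Ioi a = univ :=
      eq_univ_of_forall fun ω => ha.trans_le last_nonneg
    rw [e]
    exact MeasurableSet.univ
  · have e : last E T ⁻¹' Ioi a = ⋃ q ∈ {q : ℚ | a < q ∧ (q : ℝ) ≤ T}, E q := by
      ext ω
      rw [mem_preimage, mem_Ioi, mem_iUnion₂]
      constructor
      · intro h
        obtain ⟨q, h1, h2⟩ := exists_rat_btwn h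
        exact ⟨q, ⟨h1, h2.le.trans (last_le hT)⟩, mem_of_lt_last hE (ha.trans h1.le) h2⟩
      · rintro ⟨q, ⟨h1, h2⟩, h3⟩
        exact h1.trans_le (le_last ⟨ha.trans h1.le, h2⟩ h3)
    rw [e]
    exact MeasurableSet.biUnion (to_countable _) fun q hq => hm q ⟨ha.trans hq.1.le, hq.2⟩

section
variable [MeasurableSpace Θ] {P : Measure Θ} (S : Sys P)

theorem contW (ω : Θ) : Continuous (S.W ω) := (S.contO ω).add (S.cont ω)

theorem adX {s t : ℝ} (h : s ≤ t) : Measurable[S.F t] (fun ω => S.X ω s) :=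
  (S.ad s).mono (S.F.mono h) le_rfl

theorem adW {s t : ℝ} (h : s ≤ t) : Measurable[S.F t] (fun ω => S.W ω s) :=
  Measurable.add (m := S.F t) ((S.adO s).mono (S.F.mono h) le_rfl) (adX S h)

end

/-- evaluation of a continuous process at a random time -/
theorem measurable_at [MeasurableSpace Θ] {V : Θ → ℝ → ℝ} (hc : ∀ ω, Continuous (V ω))
    (hm : ∀ s ∈ Icc 0 T, Measurable (fun ω => V ω s)) {τ : Θ → ℝ} (hτ : Measurable τ)
    (h0 : ∀ ω, τ ω ∈ Icc 0 T) : Measurable (fun ω => V ω (τ ω)) := by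
  have h1 : Measurable (Function.uncurry fun (s : Icc (0 : ℝ) T) (ω : Θ) => V ω s) :=
    measurable_uncurry_of_continuous_of_measurable
      (fun ω => (hc ω).comp continuous_subtype_val) fun s => hm s s.2
  exact h1.comp ((hτ.subtype_mk (h := h0)).prodMk measurable_id)

end Vale.Agent.P155.Tree.Ito

namespace Vale.Agent.P155.Tree

open Set Metric Filter Topology MeasureTheory ProbabilityTheory Vale.Agent.P164 Ito

theorem Ito.last_life (h0 : GEO0) {Θ : Type} [MeasurableSpace Θ] {P : Measure Θ} {S : Sys P}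
    {w : ℂ} {η : ℝ} {E : ℝ → Set Θ} (hw : w ∈ HH) (hη : 0 < η) (hE : Stp S w η E) (T : ℝ)
    (ω : Θ) : last E T ω ∈ life (S.W ω) w := by
  refine (h0 (S.W ω) (contW S ω) w hw).2.2.1 _ η last_nonneg hη fun s hs hlt => ?_
  have h1 := hE.good s hs ω (mem_of_lt_last hE.anti hs hlt)
  exact ⟨⟨hs, h1.1⟩, h1.2.trans ((le_abs_self _).trans (Complex.abs_im_le_norm _))⟩

theorem stp_of (_ : MEAS) (h0 : GEO0) (hR : RIE) : STP := by
  intro Θ mΘ P S w η E hw hη hE
  refine ⟨fun T hT => ⟨fun ω => ⟨last_life h0 hw hη hE T ω, last_le hT,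
    fun s hs h => mem_of_lt_last hE.anti hs h, fun s hs h => le_last hs h⟩, ?_⟩, ?_⟩
  · have hl : Measurable[S.F T] (last E T) :=
      @measurable_last Θ E T (S.F T) hE.anti hT fun s hs => S.F.mono hs.2 _ (hE.ad s hs.1)
    have hmem : ∀ ω, last E T ω ∈ Icc 0 T := fun ω => ⟨last_nonneg, last_le hT⟩
    have hW : ∀ s ∈ Icc 0 T, Measurable[S.F T] (fun ω => S.W ω s) := fun s hs => adW S hs.2
    have hX : ∀ s ∈ Icc 0 T, Measurable[S.F T] (fun ω => S.X ω s) := fun s hs => adX S hs.2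
    have hcW := contW S
    have hcX := S.cont
    have hlife := last_life h0 hw hη hE T
    change Measurable[S.F T] (last E T) ∧ Measurable[S.F T] (fun ω =>
      Complex.log (Zf (S.W ω) w (last E T ω)) -
        Complex.log (Zf (S.W ω) w (last E T ω) + (S.X ω (last E T ω) : ℂ))) ∧ _
    generalize S.W = W at hW hcW hlife ⊢
    generalize S.X = X at hX hcX ⊢
    generalize S.F T = m at hl hW hX ⊢
    clear hE S P mΘ
    have hp : Measurable (fun ω : Θ => (((last E T ω, w) : ℝ × ℂ), ω)) :=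
      (hl.prodMk measurable_const).prodMk measurable_id
    have hZ : Measurable (fun ω => Zf (W ω) w (last E T ω)) := by
      have h := (joint_Z hcW hW).comp hp
      have e : (fun ω => Zf (W ω) w (last E T ω)) = (fun p : (ℝ × ℂ) × Θ =>
          if 0 ≤ p.1.1 ∧ p.1.1 ≤ T then Zf (W p.2) p.1.2 p.1.1 else 0) ∘
          (fun ω : Θ => (((last E T ω, w) : ℝ × ℂ), ω)) := by
        funext ω
        exact (if_pos (hmem ω)).symm
      rw [e]
      exact h
    have hXl : Measurable (fun ω => X ω (last E T ω)) := measurable_at hcX hX hl hmem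
    refine ⟨hl, (Complex.measurable_log.comp hZ).sub
      (Complex.measurable_log.comp (hZ.add (Complex.measurable_ofReal.comp hXl))), ?_⟩
    have h := (joint_U hcW hW).comp hp
    have e : (fun ω => Uf (W ω) w (last E T ω)) = (fun p : (ℝ × ℂ) × Θ =>
        if 0 ≤ p.1.1 ∧ p.1.1 ≤ T then St (fun _ U => U) (W p.2) p.1.2 p.1.1 else 0) ∘
        (fun ω : Θ => (((last E T ω, w) : ℝ × ℂ), ω)) := by
      funext ω
      change _ = if 0 ≤ last E T ω ∧ last E T ω ≤ T then
        St (fun _ U => U) (W ω) w (last E T ω) else 0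
      rw [if_pos (show 0 ≤ last E T ω ∧ last E T ω ≤ T from hmem ω), St_of_mem (hlife ω).2]
    rw [e]
    exact h
  · intro T Φ hΦ ω
    classical
    have hT : (0 : ℝ) ≤ T := Nat.cast_nonneg T
    set ρ := last E T ω with hρ
    have hρ0 : 0 ≤ ρ := last_nonneg
    have hρT : ρ ≤ T := last_le hT
    have hlife : w ∈ loewnerDomain (S.W ω) ρ := (last_life h0 hw hη hE T ω).2
    have hc : ContinuousOn (fun s => Φ (Zf (S.W ω) w s)) (Icc 0 ρ) :=
      hΦ.comp (Zf_cont (contW S ω) hρ0 hlife) fun s hs => Zf_im_pos hs.1 (dom_mono hs.2 hlife)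
    obtain ⟨K, hK⟩ := isCompact_Icc.exists_bound_of_continuousOn hc
    set c : ℝ → ℂ := fun s => if s ∈ Icc (0 : ℝ) T ∧ ω ∈ E s then Φ (Zf (S.W ω) w s) else 0
      with hcdef
    have hK0 : 0 ≤ K := (norm_nonneg _).trans (hK 0 ⟨le_rfl, hρ0⟩)
    have hcK : ∀ s, ‖c s‖ ≤ K := by
      intro s
      by_cases h : s ∈ Icc (0 : ℝ) T ∧ ω ∈ E s
      · simp only [hcdef, if_pos h]
        exact hK s ⟨h.1.1, le_last h.1 h.2⟩
      · simp only [hcdef, if_neg h, norm_zero]
        exact hK0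
    have hlt : ∀ s, 0 ≤ s → s < ρ → c s = Φ (Zf (S.W ω) w s) := fun s hs h =>
      if_pos ⟨⟨hs, h.le.trans hρT⟩, mem_of_lt_last hE.anti hs h⟩
    have hgt : ∀ s, ρ < s → c s = 0 := fun s h =>
      if_neg fun h' => absurd (le_last h'.1 h'.2) (not_le.2 h)
    have hne : ∀ᵐ s ∂(volume : Measure ℝ), s ≠ ρ := by
      simpa only [ae_iff, not_not, ofPred_eq_eq_singleton] using Real.volume_singleton
    obtain ⟨hint, hlim⟩ := hR c K T hcK (by
      rw [ae_restrict_iff' measurableSet_Icc]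
      filter_upwards [hne] with s hs hsI
      rcases lt_or_gt_of_ne hs with h | h
      · rw [hlt s hsI.1 h]
        have h1 : Tendsto (fun n => tt n ⌊s * 2 ^ n⌋₊) atTop (𝓝[Icc 0 ρ] s) :=
          tendsto_nhdsWithin_iff.2 ⟨tendsto_tt_floor hsI.1, Eventually.of_forall fun n =>
            ⟨tt_nonneg _ _, (tt_floor_le hsI.1 n).trans h.le⟩⟩
        refine ((hc s ⟨hsI.1, h.le⟩).tendsto.comp h1).congr fun n => ?_
        exact (hlt _ (tt_nonneg _ _) ((tt_floor_le hsI.1 n).trans_lt h)).symm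
      · rw [hgt s h]
        refine tendsto_const_nhds.congr' ?_
        filter_upwards [(tendsto_tt_floor hsI.1).eventually (lt_mem_nhds h)] with n hn
        exact (hgt _ hn).symm)
    have e1 : ∫ s in (0 : ℝ)..T, c s = ∫ s in (0 : ℝ)..ρ, Φ (Zf (S.W ω) w s) := by
      have i1 : IntervalIntegrable c volume 0 ρ :=
        (intervalIntegrable_iff_integrableOn_Icc_of_le hρ0).2
          (hint.mono_set (Icc_subset_Icc_right hρT))
      have i2 : IntervalIntegrable c volume ρ T :=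
        (intervalIntegrable_iff_integrableOn_Icc_of_le hρT).2
          (hint.mono_set (Icc_subset_Icc_left hρ0))
      rw [← intervalIntegral.integral_add_adjacent_intervals i1 i2]
      have z : ∫ s in ρ..T, c s = 0 := by
        rw [intervalIntegral.integral_of_le hρT]
        exact setIntegral_eq_zero_of_forall_eq_zero fun s hs => hgt s hs.1
      rw [z, add_zero]
      refine intervalIntegral.integral_congr_ae ?_
      filter_upwards [hne] with s hs hsI
      rw [uIoc_of_le hρ0] at hsI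
      exact hlt s hsI.1.le (lt_of_le_of_ne hsI.2 hs)
    rw [e1] at hlim
    refine hlim.congr fun n => ?_
    congr 1
    refine Finset.sum_congr rfl fun i hi => ?_
    have hi' : tt n i ∈ Icc (0 : ℝ) T := ⟨tt_nonneg n i, tt_le (Finset.mem_range.1 hi).le⟩
    by_cases h : ω ∈ E (tt n i)
    · rw [indicator_of_mem h]
      exact if_pos ⟨hi', h⟩
    · rw [indicator_of_notMem h]
      exact if_neg fun h' => h h'.2

end Vale.Agent.P155.Tree
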